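import Vale.Agent.P249Z.Cone
import Mathlib.Analysis.Normed.Lp.PiLp
import Mathlib.MeasureTheory.Function.LpSpace.Basic
import Mathlib.MeasureTheory.Function.L1Space.Integrable
import Mathlib.MeasureTheory.Integral.Bochner.Basic
import Mathlib.MeasureTheory.SpecificCodomains.Pi
import Mathlib.Data.Fintype.Prod

/-!
# P249Z: every `n`-point subset of `L_p` embeds isometrically into `ℓ_p^(n choose 2)`
-/

open MeasureTheory Filter Topology
open scoped BigOperators ENNReal

namespace Vale.Agent.P249Z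

theorem toReal_pos' {p : ℝ≥0∞} [hp : Fact (1 ≤ p)] (hpt : p ≠ ∞) : 0 < p.toReal :=
  ENNReal.toReal_pos (zero_lt_one.trans_le hp.out).ne' hpt

theorem norm_rpow_sum {p : ℝ≥0∞} [Fact (1 ≤ p)] (hp : p ≠ ∞) {ι : Type*} [Fintype ι]
    (v : PiLp p (fun _ : ι => ℝ)) : ‖v‖ ^ p.toReal = ∑ i, |v i| ^ p.toReal := by
  have h0 := toReal_pos' (p := p) hp
  rw [PiLp.norm_eq_sum h0, ← Real.rpow_mul (Finset.sum_nonneg fun i _ =>
    Real.rpow_nonneg (norm_nonneg _) _), one_div, inv_mul_cancel₀ h0.ne', Real.rpow_one]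
  simp only [Real.norm_eq_abs]

section
variable {Ω : Type*} [MeasurableSpace Ω] {μ : Measure Ω}

theorem integrable_sub_rpow {p : ℝ≥0∞} [hp : Fact (1 ≤ p)] (hpt : p ≠ ∞)
    (x y : Lp ℝ p μ) : Integrable (fun ω => |x ω - y ω| ^ p.toReal) μ := by
  have h1 : MemLp (fun ω => x ω - y ω) p μ := (Lp.memLp x).sub (Lp.memLp y)
  have h2 := h1.integrable_norm_rpow (zero_lt_one.trans_le hp.out).ne' hpt
  simpa only [Real.norm_eq_abs] using h2

theorem integral_sub_rpow {p : ℝ≥0∞} [hp : Fact (1 ≤ p)] (hpt : p ≠ ∞)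
    (x y : Lp ℝ p μ) : ∫ ω, |x ω - y ω| ^ p.toReal ∂μ = ‖x - y‖ ^ p.toReal := by
  have hp1 : 0 < p.toReal := toReal_pos' hpt
  have h1 : MemLp (fun ω => x ω - y ω) p μ := (Lp.memLp x).sub (Lp.memLp y)
  have h2 := h1.eLpNorm_eq_integral_rpow_norm (zero_lt_one.trans_le hp.out).ne' hpt
  simp only [Real.norm_eq_abs] at h2
  have h3 : 0 ≤ ∫ ω, |x ω - y ω| ^ p.toReal ∂μ :=
    integral_nonneg fun ω => Real.rpow_nonneg (abs_nonneg _) _
  have h4 : eLpNorm (⇑(x - y)) p μ =
      eLpNorm (fun ω => x ω - y ω) p μ := eLpNorm_congr_ae (Lp.coeFn_sub x y)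
  rw [Lp.norm_def, h4, h2, ENNReal.toReal_ofReal (Real.rpow_nonneg h3 _),
    ← Real.rpow_mul h3, inv_mul_cancel₀ hp1.ne', Real.rpow_one]

end

/-- The ordered pairs `i < j` in `Fin n`. -/
abbrev Pairs (n : ℕ) : Type := {q : Fin n × Fin n // q.1 < q.2}

theorem card_pairs (n : ℕ) : Fintype.card (Pairs n) = n.choose 2 := by
  have h := Fintype.card_product_filter_lt (α := Fin n)
  rw [Fintype.card_fin] at h
  rw [← h, Fintype.card_subtype]

/-- The vector of the `P`-th powers of the distances of `n` real numbers. -/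
noncomputable def powDist (P : ℝ) {n : ℕ} (t : Fin n → ℝ) : Pairs n → ℝ :=
  fun q => |t q.1.1 - t q.1.2| ^ P

theorem powDist_continuous {P : ℝ} (hP : 0 < P) {n : ℕ} :
    Continuous (powDist P : (Fin n → ℝ) → Pairs n → ℝ) := by
  refine continuous_pi fun q => ?_
  exact (((continuous_apply q.1.1).sub (continuous_apply q.1.2)).abs).rpow_const
    fun _ => Or.inr hP.le

theorem powDist_smul {P : ℝ} (hP : 0 < P) {n : ℕ} (c : ℝ) (hc : 0 ≤ c) (t : Fin n → ℝ) :
    c • powDist P t = powDist P (fun i => c ^ (1 / P) * t i) := by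
  funext q
  have h1 : 0 ≤ c ^ (1 / P) := Real.rpow_nonneg hc _
  simp only [powDist, Pi.smul_apply, smul_eq_mul]
  rw [← mul_sub, abs_mul, abs_of_nonneg h1, Real.mul_rpow h1 (abs_nonneg _), ← Real.rpow_mul hc,
    one_div, inv_mul_cancel₀ hP.ne', Real.rpow_one]

theorem range_powDist_smul {P : ℝ} (hP : 0 < P) {n : ℕ} :
    ∀ c : ℝ, 0 ≤ c → ∀ u ∈ Set.range (powDist P : (Fin n → ℝ) → Pairs n → ℝ),
      c • u ∈ Set.range (powDist P : (Fin n → ℝ) → Pairs n → ℝ) := by
  rintro c hc _ ⟨t, rfl⟩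
  exact ⟨_, (powDist_smul hP c hc t).symm⟩

/-- The sums of `N` vectors `powDist P t` form a closed set. -/
theorem isClosed_sums {P : ℝ} (hP : 0 < P) (n N : ℕ) :
    IsClosed {v : Pairs (n + 1) → ℝ | ∃ u : Fin N → Pairs (n + 1) → ℝ,
      (∀ k, u k ∈ Set.range (powDist P : (Fin (n + 1) → ℝ) → Pairs (n + 1) → ℝ)) ∧
        ∑ k, u k = v} := by
  classical
  refine isClosed_of_closure_subset fun v hv => ?_
  obtain ⟨w, hw, hlim⟩ := mem_closure_iff_seq_limit.1 hv
  choose u hu hsum using hw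
  choose t ht using hu
  -- normalise the first coordinate
  set t' : ℕ → Fin N → Fin (n + 1) → ℝ := fun m k i => t m k i - t m k 0 with ht'
  have ht'u : ∀ m k, powDist P (t' m k) = u m k := by
    intro m k
    rw [← ht m k]
    funext q
    simp only [powDist, ht', sub_sub_sub_cancel_right]
  obtain ⟨R, hR⟩ : ∃ R : ℝ, ∀ m, ‖w m‖ ≤ R := by
    obtain ⟨R, hR⟩ := (Metric.isBounded_range_of_tendsto w hlim).exists_norm_le
    exact ⟨R, fun m => hR _ ⟨m, rfl⟩⟩
  have hR0 : 0 ≤ R := (norm_nonneg _).trans (hR 0)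
  have hbd : ∀ m, t' m ∈ Metric.closedBall (0 : Fin N → Fin (n + 1) → ℝ) (R ^ (1 / P)) := by
    intro m
    have hRP : 0 ≤ R ^ (1 / P) := Real.rpow_nonneg hR0 _
    rw [mem_closedBall_zero_iff, pi_norm_le_iff_of_nonneg hRP]
    intro k
    rw [pi_norm_le_iff_of_nonneg hRP]
    intro i
    rcases eq_or_ne i 0 with rfl | hi
    · simp only [ht', sub_self, norm_zero, hRP]
    · have hi' : (0 : Fin (n + 1)) < i := Fin.pos_iff_ne_zero.2 hi
      set q : Pairs (n + 1) := ⟨(0, i), hi'⟩ with hq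
      have h1 : u m k q ≤ ∑ k', u m k' q := by
        refine Finset.single_le_sum (f := fun k' => u m k' q) (fun k' _ => ?_) (Finset.mem_univ k)
        rw [← ht m k']
        exact Real.rpow_nonneg (abs_nonneg _) _
      have h2 : ∑ k', u m k' q = w m q := by rw [← hsum m, Finset.sum_apply]
      have h3 : w m q ≤ R :=
        ((le_abs_self _).trans (norm_le_pi_norm (w m) q)).trans (hR m)
      have h4 : u m k q = |t' m k i| ^ P := by
        rw [← ht m k]
        simp only [powDist, hq, ht']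
        rw [abs_sub_comm]
      have h5 : |t' m k i| ^ P ≤ (R ^ (1 / P)) ^ P := by
        rw [← Real.rpow_mul hR0, one_div, inv_mul_cancel₀ hP.ne', Real.rpow_one]
        linarith
      exact (Real.rpow_le_rpow_iff (abs_nonneg _) hRP hP).1 h5
  obtain ⟨s, -, φ, hφ, hs⟩ := tendsto_subseq_of_bounded Metric.isBounded_closedBall hbd
  refine ⟨fun k => powDist P (s k), fun k => ⟨_, rfl⟩, ?_⟩
  have hc : Continuous (fun z : Fin N → Fin (n + 1) → ℝ => ∑ k, powDist P (z k)) :=
    continuous_finsetSum _ fun k _ => (powDist_continuous hP).comp (continuous_apply k)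
  have h1 := (hc.tendsto s).comp hs
  have h2 : Tendsto (fun m => w (φ m)) atTop (𝓝 v) := hlim.comp hφ.tendsto_atTop
  refine tendsto_nhds_unique h1 ?_
  refine h2.congr fun m => ?_
  simp only [Function.comp, ht'u, hsum]

/-- For `n` elements of `L_p(μ)` there are `n.choose 2` real `n`-tuples with the same `p`-th
powers of the distances. -/
theorem exists_coords {p : ℝ≥0∞} [Fact (1 ≤ p)] (hp : p ≠ ∞) {Ω : Type*} [MeasurableSpace Ω]
    {μ : Measure Ω} {n : ℕ} (x : Fin n → Lp ℝ p μ) :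
    ∃ t : Fin (n.choose 2) → Fin n → ℝ, ∀ i j,
      ∑ k, |t k i - t k j| ^ p.toReal = ‖x i - x j‖ ^ p.toReal := by
  classical
  have hP := toReal_pos' (p := p) hp
  rcases n with _ | n
  · exact ⟨fun _ _ => 0, fun i => i.elim0⟩
  set N := (n + 1).choose 2 with hN
  set S : Set (Pairs (n + 1) → ℝ) := Set.range (powDist p.toReal) with hS
  set C : Set (Pairs (n + 1) → ℝ) :=
    {v | ∃ u : Fin N → Pairs (n + 1) → ℝ, (∀ k, u k ∈ S) ∧ ∑ k, u k = v} with hC
  have hdim : Module.finrank ℝ (Pairs (n + 1) → ℝ) ≤ N := by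
    rw [Module.finrank_fintype_fun_eq_card, card_pairs]
  have hSs := range_powDist_smul (n := n + 1) hP
  have h0S : (0 : Pairs (n + 1) → ℝ) ∈ S := by
    have := hSs 0 le_rfl _ ⟨fun _ => 0, rfl⟩
    rwa [zero_smul] at this
  have hSC : ∀ u ∈ S, u ∈ C := by
    intro u hu
    obtain ⟨z, hz, hsum⟩ := cone_reduce S hSs hdim 1
      (Fin.append (fun _ : Fin N => (0 : Pairs (n + 1) → ℝ)) (fun _ : Fin 1 => u)) (by
        intro k
        refine Fin.addCases (fun i => ?_) (fun i => ?_) k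
        · rw [Fin.append_left]; exact h0S
        · rw [Fin.append_right]; exact hu)
    refine ⟨z, hz, ?_⟩
    rw [hsum, Fin.sum_univ_add]
    simp only [Fin.append_left, Fin.append_right, Finset.sum_const_zero, zero_add,
      Finset.univ_unique, Finset.sum_singleton]
  have hint : Integrable (fun ω => powDist p.toReal (fun i => x i ω)) μ :=
    integrable_pi_iff.2 fun q => integrable_sub_rpow hp _ _
  have hmem : ∫ ω, powDist p.toReal (fun i => x i ω) ∂μ ∈ C := by
    refine integral_mem_cone C (convex_sums S hSs hdim) (isClosed_sums hP n N) ?_ (hSC _ h0S)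
      hint fun ω => hSC _ ⟨_, rfl⟩
    rintro c hc _ ⟨u, hu, rfl⟩
    exact ⟨fun k => c • u k, fun k => hSs c hc _ (hu k), by rw [Finset.smul_sum]⟩
  obtain ⟨u, hu, hsum⟩ := hmem
  choose t ht using hu
  have key : ∀ i j : Fin (n + 1), i < j →
      ∑ k, |t k i - t k j| ^ p.toReal = ‖x i - x j‖ ^ p.toReal := by
    intro i j hij
    have h1 := congrFun hsum ⟨(i, j), hij⟩
    rw [Finset.sum_apply, eval_integral (f := fun ω => powDist p.toReal (fun i => x i ω))
      (fun q => integrable_sub_rpow hp _ _)] at h1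
    simp only [← ht, powDist] at h1
    rw [h1, integral_sub_rpow hp]
  refine ⟨t, fun i j => ?_⟩
  rcases lt_trichotomy i j with h | rfl | h
  · exact key i j h
  · simp only [sub_self, abs_zero, norm_zero, Real.zero_rpow hP.ne', Finset.sum_const_zero]
  · rw [norm_sub_rev, ← key j i h]
    simp only [abs_sub_comm]

/-- Every finite subset `X` of `L_p(μ)` has an isometric map into `ℓ_p^d`, `d = |X|.choose 2`. -/
theorem exists_isometric {p : ℝ≥0∞} [Fact (1 ≤ p)] (hp : p ≠ ∞) {Ω : Type*} [MeasurableSpace Ω]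
    {μ : Measure Ω} (X : Finset (Lp ℝ p μ)) :
    ∃ f : Lp ℝ p μ → PiLp p (fun _ : Fin (X.card.choose 2) => ℝ),
      ∀ x ∈ X, ∀ y ∈ X, ‖f x - f y‖ = ‖x - y‖ := by
  classical
  have hP := toReal_pos' (p := p) hp
  set e := X.equivFin with he
  obtain ⟨t, ht⟩ := exists_coords hp (fun i => ((e.symm i : X) : Lp ℝ p μ))
  refine ⟨fun x => if h : x ∈ X then WithLp.toLp p (fun k => t k (e ⟨x, h⟩)) else 0,
    fun x hx y hy => ?_⟩
  have h1 := ht (e ⟨x, hx⟩) (e ⟨y, hy⟩)
  simp only [Equiv.symm_apply_apply] at h1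
  refine (Real.rpow_left_inj (norm_nonneg _) (norm_nonneg _) hP.ne').1 ?_
  rw [norm_rpow_sum hp, ← h1]
  simp only [dif_pos hx, dif_pos hy, PiLp.sub_apply]

end Vale.Agent.P249Z
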