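import Mathlib.Analysis.Convex.SpecificFunctions.Pow
import Mathlib.Analysis.MeanInequalitiesPow
import Mathlib.Algebra.Order.BigOperators.Group.Finset

/-!
# P249Z: equality cases in the scalar Clarkson inequalities
-/

open scoped BigOperators

namespace Vale.Agent.P249Z

theorem abs_rpow_eq_sq_rpow (P t : ℝ) : |t| ^ P = (t ^ 2) ^ (P / 2) := by
  rw [← sq_abs, ← Real.rpow_natCast, ← Real.rpow_mul (abs_nonneg _)]
  congr 1
  push_cast
  ring

/-- midpoint form of strict convexity of `x ^ r`, `1 < r` -/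
theorem mid_convex {r A B : ℝ} (hr : 1 < r) (hA : 0 ≤ A) (hB : 0 ≤ B) :
    2 * ((A + B) / 2) ^ r ≤ A ^ r + B ^ r ∧ (A ≠ B → 2 * ((A + B) / 2) ^ r < A ^ r + B ^ r) := by
  have h2 : A ≠ B → 2 * ((A + B) / 2) ^ r < A ^ r + B ^ r := by
    intro hAB
    have h := (strictConvexOn_rpow hr).2 (Set.mem_Ici.2 hA) (Set.mem_Ici.2 hB) hAB
      (show (0 : ℝ) < 1 / 2 by norm_num) (show (0 : ℝ) < 1 / 2 by norm_num) (by norm_num)
    simp only [smul_eq_mul] at h
    have e : (A + B) / 2 = 1 / 2 * A + 1 / 2 * B := by ring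
    rw [e]
    linarith
  refine ⟨?_, h2⟩
  rcases eq_or_ne A B with rfl | h
  · have e : (A + A) / 2 = A := by ring
    rw [e]
    linarith
  · exact (h2 h).le

/-- midpoint form of strict concavity of `x ^ r`, `0 < r < 1` -/
theorem mid_concave {r A B : ℝ} (hr0 : 0 < r) (hr : r < 1) (hA : 0 ≤ A) (hB : 0 ≤ B) :
    A ^ r + B ^ r ≤ 2 * ((A + B) / 2) ^ r ∧ (A ≠ B → A ^ r + B ^ r < 2 * ((A + B) / 2) ^ r) := by
  have h2 : A ≠ B → A ^ r + B ^ r < 2 * ((A + B) / 2) ^ r := by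
    intro hAB
    have h := (Real.strictConcaveOn_rpow hr0 hr).2 (Set.mem_Ici.2 hA) (Set.mem_Ici.2 hB) hAB
      (show (0 : ℝ) < 1 / 2 by norm_num) (show (0 : ℝ) < 1 / 2 by norm_num) (by norm_num)
    simp only [smul_eq_mul] at h
    have e : (A + B) / 2 = 1 / 2 * A + 1 / 2 * B := by ring
    rw [e]
    linarith
  refine ⟨?_, h2⟩
  rcases eq_or_ne A B with rfl | h
  · have e : (A + A) / 2 = A := by ring
    rw [e]
    linarith
  · exact (h2 h).le

theorem sq_ne_of_mul_ne {u v : ℝ} (h : u * v ≠ 0) : (u + v) ^ 2 ≠ (u - v) ^ 2 := by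
  intro h1
  apply h
  nlinarith

/-- Clarkson, `2 < P`, with the case of equality. -/
theorem clarkson_gt {P : ℝ} (hP : 2 < P) (u v : ℝ) :
    2 * (|u| ^ P + |v| ^ P) ≤ |u + v| ^ P + |u - v| ^ P ∧
      (u * v ≠ 0 → 2 * (|u| ^ P + |v| ^ P) < |u + v| ^ P + |u - v| ^ P) := by
  have hr : 1 < P / 2 := by linarith
  obtain ⟨h1, h2⟩ := mid_convex hr (sq_nonneg (u + v)) (sq_nonneg (u - v))
  have e : ((u + v) ^ 2 + (u - v) ^ 2) / 2 = u ^ 2 + v ^ 2 := by ring
  rw [e] at h1 h2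
  have h3 := Real.add_rpow_le_rpow_add (sq_nonneg u) (sq_nonneg v) hr.le
  simp only [abs_rpow_eq_sq_rpow]
  exact ⟨by linarith, fun h => by linarith [h2 (sq_ne_of_mul_ne h)]⟩

/-- Clarkson, `0 < P < 2`, with the case of equality. -/
theorem clarkson_lt {P : ℝ} (hP0 : 0 < P) (hP : P < 2) (u v : ℝ) :
    |u + v| ^ P + |u - v| ^ P ≤ 2 * (|u| ^ P + |v| ^ P) ∧
      (u * v ≠ 0 → |u + v| ^ P + |u - v| ^ P < 2 * (|u| ^ P + |v| ^ P)) := by
  have hr : P / 2 < 1 := by linarith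
  have hr0 : 0 < P / 2 := by linarith
  obtain ⟨h1, h2⟩ := mid_concave hr0 hr (sq_nonneg (u + v)) (sq_nonneg (u - v))
  have e : ((u + v) ^ 2 + (u - v) ^ 2) / 2 = u ^ 2 + v ^ 2 := by ring
  rw [e] at h1 h2
  have h3 := Real.rpow_add_le_add_rpow (sq_nonneg u) (sq_nonneg v) hr0.le hr.le
  simp only [abs_rpow_eq_sq_rpow]
  exact ⟨by linarith, fun h => by linarith [h2 (sq_ne_of_mul_ne h)]⟩

/-- Equality in Clarkson's inequality for sums forces disjoint supports. -/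
theorem mul_eq_zero_of_clarkson {P : ℝ} (hP0 : 0 < P) (hP : P ≠ 2) {ι : Type*} [Fintype ι]
    (u v : ι → ℝ)
    (h : ∑ c, |u c + v c| ^ P + ∑ c, |u c - v c| ^ P = 2 * (∑ c, |u c| ^ P + ∑ c, |v c| ^ P))
    (c : ι) : u c * v c = 0 := by
  by_contra hc
  rw [← Finset.sum_add_distrib, ← Finset.sum_add_distrib, Finset.mul_sum] at h
  rcases lt_or_gt_of_ne hP with h2 | h2
  · exact absurd h (ne_of_lt (Finset.sum_lt_sum (fun i _ => (clarkson_lt hP0 h2 _ _).1)
      ⟨c, Finset.mem_univ _, (clarkson_lt hP0 h2 _ _).2 hc⟩))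
  · exact absurd h.symm (ne_of_lt (Finset.sum_lt_sum (fun i _ => (clarkson_gt h2 _ _).1)
      ⟨c, Finset.mem_univ _, (clarkson_gt h2 _ _).2 hc⟩))

/-- strict convexity of `|x| ^ P`, `1 < P` -/
theorem abs_sub_rpow_le {P : ℝ} (hP : 1 < P) (a b : ℝ) :
    2 * |a - b| ^ P ≤ 2 ^ P * (|a| ^ P + |b| ^ P) ∧
      (b ≠ -a → 2 * |a - b| ^ P < 2 ^ P * (|a| ^ P + |b| ^ P)) := by
  obtain ⟨h1, h2⟩ := mid_convex hP (abs_nonneg a) (abs_nonneg b)
  have h2P : (0 : ℝ) < 2 ^ P := Real.rpow_pos_of_pos (by norm_num) _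
  have hab : 0 ≤ |a| + |b| := add_nonneg (abs_nonneg _) (abs_nonneg _)
  have h3 : |a - b| ^ P ≤ 2 ^ P * ((|a| + |b|) / 2) ^ P := by
    rw [← Real.mul_rpow (by norm_num) (by linarith)]
    refine Real.rpow_le_rpow (abs_nonneg _) ?_ (by linarith)
    have := abs_sub a b
    linarith
  refine ⟨by nlinarith, fun hb => ?_⟩
  rcases eq_or_ne |a| |b| with h | h
  · have hba : b = a := by
      rcases abs_eq_abs.1 h with h4 | h4
      · exact h4.symm
      · exact absurd (by linarith) hb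
    subst hba
    have hb0 : b ≠ 0 := by
      rintro rfl
      exact hb (by simp)
    have h5 : 0 < |b| ^ P := Real.rpow_pos_of_pos (abs_pos.2 hb0) _
    rw [sub_self, abs_zero, Real.zero_rpow (by linarith), mul_zero]
    positivity
  · have := h2 h
    nlinarith

/-- Equality in the triangle inequality between vectors of the same norm. -/
theorem eq_neg_of_sums {P : ℝ} (hP : 1 < P) {ι : Type*} [Fintype ι] (a b : ι → ℝ)
    (h : 2 * ∑ c, |a c - b c| ^ P = 2 ^ P * (∑ c, |a c| ^ P + ∑ c, |b c| ^ P)) (c : ι) :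
    b c = -a c := by
  by_contra hc
  rw [← Finset.sum_add_distrib, Finset.mul_sum, Finset.mul_sum] at h
  exact absurd h (ne_of_lt (Finset.sum_lt_sum (fun i _ => (abs_sub_rpow_le hP _ _).1)
    ⟨c, Finset.mem_univ _, (abs_sub_rpow_le hP _ _).2 hc⟩))

end Vale.Agent.P249Z
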