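import Mathlib.Analysis.LocallyConvex.Separation
import Mathlib.Analysis.SpecialFunctions.Pow.Continuity
import Mathlib.LinearAlgebra.Dimension.Constructions
import Mathlib.LinearAlgebra.FiniteDimensional.Lemmas
import Mathlib.MeasureTheory.Integral.Bochner.ContinuousLinearMap
import Mathlib.Topology.MetricSpace.Sequences
import Mathlib.Analysis.Normed.Module.FiniteDimension

/-!
# P249Z: a conic Caratheodory theorem and integrals over closed cones
-/

open MeasureTheory Filter Topology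
open scoped BigOperators

namespace Vale.Agent.P249Z

/-- One reduction step: a sum of `N + 1` elements of a cone in a space of dimension at most `N`
is a sum of `N` elements of the cone. -/
theorem cone_reduce_one {E : Type*} [AddCommGroup E] [Module ℝ E] [Module.Finite ℝ E]
    (S : Set E) (hS : ∀ c : ℝ, 0 ≤ c → ∀ u ∈ S, c • u ∈ S) {N : ℕ}
    (hN : Module.finrank ℝ E ≤ N) (u : Fin (N + 1) → E) (hu : ∀ k, u k ∈ S) :
    ∃ u' : Fin N → E, (∀ k, u' k ∈ S) ∧ ∑ k, u' k = ∑ k, u k := by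
  classical
  have hdep : ¬ LinearIndependent ℝ u := by
    intro h
    have := h.fintype_card_le_finrank
    simp only [Fintype.card_fin] at this
    omega
  obtain ⟨a, ha, i₀, hi₀⟩ := Fintype.not_linearIndependent_iff.1 hdep
  -- we may assume that some coefficient is positive
  obtain ⟨a, ha, i₀, hi₀⟩ : ∃ a : Fin (N + 1) → ℝ, ∑ k, a k • u k = 0 ∧ ∃ i, 0 < a i := by
    rcases lt_or_gt_of_ne hi₀ with h | h
    · refine ⟨fun k => - a k, ?_, i₀, by simpa using h⟩
      simp only [neg_smul, Finset.sum_neg_distrib, ha, neg_zero]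
    · exact ⟨a, ha, i₀, h⟩
  obtain ⟨j, -, hj⟩ := Finset.exists_max_image Finset.univ a ⟨i₀, Finset.mem_univ _⟩
  have hjpos : 0 < a j := hi₀.trans_le (hj i₀ (Finset.mem_univ _))
  set c : Fin (N + 1) → ℝ := fun k => 1 - a k / a j with hc
  have hc0 : ∀ k, 0 ≤ c k := fun k => by
    have : a k / a j ≤ 1 := (div_le_one hjpos).2 (hj k (Finset.mem_univ _))
    simp only [hc]
    linarith
  have hcj : c j = 0 := by simp only [hc, div_self hjpos.ne', sub_self]
  have hsum : ∑ k, c k • u k = ∑ k, u k := by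
    have h1 : ∑ k, c k • u k = ∑ k, u k - (a j)⁻¹ • ∑ k, a k • u k := by
      rw [Finset.smul_sum, ← Finset.sum_sub_distrib]
      refine Finset.sum_congr rfl fun k _ => ?_
      simp only [hc, sub_smul, one_smul, smul_smul, div_eq_inv_mul]
    rw [h1, ha, smul_zero, sub_zero]
  refine ⟨fun k => c (j.succAbove k) • u (j.succAbove k), fun k => hS _ (hc0 _) _ (hu _), ?_⟩
  rw [← hsum, Fin.sum_univ_succAbove _ j, hcj, zero_smul, zero_add]

/-- Conic Caratheodory theorem. -/
theorem cone_reduce {E : Type*} [AddCommGroup E] [Module ℝ E] [Module.Finite ℝ E]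
    (S : Set E) (hS : ∀ c : ℝ, 0 ≤ c → ∀ u ∈ S, c • u ∈ S) {N : ℕ}
    (hN : Module.finrank ℝ E ≤ N) (m : ℕ) (u : Fin (N + m) → E) (hu : ∀ k, u k ∈ S) :
    ∃ u' : Fin N → E, (∀ k, u' k ∈ S) ∧ ∑ k, u' k = ∑ k, u k := by
  induction m with
  | zero => exact ⟨u, hu, rfl⟩
  | succ m ih =>
    obtain ⟨v, hv, hsum⟩ := cone_reduce_one S hS (N := N + m) (by omega) u hu
    obtain ⟨w, hw, hsum'⟩ := ih v hv
    exact ⟨w, hw, hsum'.trans hsum⟩

/-- The sums of `N` elements of a cone form a convex set when the dimension is at most `N`. -/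
theorem convex_sums {E : Type*} [AddCommGroup E] [Module ℝ E] [Module.Finite ℝ E]
    (S : Set E) (hS : ∀ c : ℝ, 0 ≤ c → ∀ u ∈ S, c • u ∈ S) {N : ℕ}
    (hN : Module.finrank ℝ E ≤ N) :
    Convex ℝ {v : E | ∃ u : Fin N → E, (∀ k, u k ∈ S) ∧ ∑ k, u k = v} := by
  rintro _ ⟨u, hu, rfl⟩ _ ⟨w, hw, rfl⟩ a b ha hb -
  obtain ⟨z, hz, hsum⟩ := cone_reduce S hS hN N
    (Fin.append (fun k => a • u k) (fun k => b • w k)) (by
      intro k
      refine Fin.addCases (fun i => ?_) (fun i => ?_) k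
      · rw [Fin.append_left]; exact hS _ ha _ (hu i)
      · rw [Fin.append_right]; exact hS _ hb _ (hw i))
  refine ⟨z, hz, ?_⟩
  rw [hsum, Fin.sum_univ_add]
  simp only [Fin.append_left, Fin.append_right, Finset.smul_sum]

/-- The integral of a function with values in a closed convex cone lies in the cone. -/
theorem integral_mem_cone {E : Type*} [NormedAddCommGroup E] [NormedSpace ℝ E] [CompleteSpace E]
    (C : Set E) (hconv : Convex ℝ C) (hcl : IsClosed C)
    (hC : ∀ c : ℝ, 0 ≤ c → ∀ u ∈ C, c • u ∈ C) (h0 : (0 : E) ∈ C)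
    {Ω : Type*} [MeasurableSpace Ω] {μ : Measure Ω} {F : Ω → E} (hF : Integrable F μ)
    (hFC : ∀ ω, F ω ∈ C) : ∫ ω, F ω ∂μ ∈ C := by
  by_contra hv
  obtain ⟨φ, r, h1, h2⟩ := geometric_hahn_banach_closed_point hconv hcl hv
  have hr : 0 < r := by simpa using h1 0 h0
  have hle : ∀ u ∈ C, φ u ≤ 0 := by
    intro u hu
    by_contra hpos
    have hpos : 0 < φ u := lt_of_not_ge hpos
    have h3 := h1 _ (hC (r / φ u) (by positivity) u hu)
    rw [map_smul, smul_eq_mul, div_mul_cancel₀ _ hpos.ne'] at h3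
    exact lt_irrefl _ h3
  have h4 : φ (∫ ω, F ω ∂μ) ≤ 0 := by
    rw [← φ.integral_comp_comm hF]
    exact integral_nonpos fun ω => hle _ (hFC ω)
  linarith

end Vale.Agent.P249Z
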