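import Vale.Agent.P249Z.Generic
import Mathlib.MeasureTheory.Integral.Bochner.SumMeasure
import Mathlib.Analysis.SpecialFunctions.Log.Basic

/-!
# P249Z: reduction to finite dimensional sources, the volume bound, and the lower bound for
isometric embeddings
-/

open MeasureTheory Metric
open scoped BigOperators ENNReal

universe u

namespace Vale.Agent.P249Z

/-- Every `n`-point subset of every `L_p(μ)`, on a measure space in universe `u`, has a map into
`ℓ_p^d` of distortion at most `D`. -/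
def Adm (p : ℝ≥0∞) [Fact (1 ≤ p)] (n : ℕ) (D : ℝ) (d : ℕ) : Prop :=
  ∀ (Ω : Type u) [MeasurableSpace Ω] (μ : Measure Ω) (X : Finset (Lp ℝ p μ)), X.card = n →
    ∃ f : Lp ℝ p μ → PiLp p (fun _ : Fin d => ℝ), ∃ s : ℝ, 0 < s ∧ ∀ x ∈ X, ∀ y ∈ X,
      s * ‖x - y‖ ≤ ‖f x - f y‖ ∧ ‖f x - f y‖ ≤ D * s * ‖x - y‖

/-- The same for families of `n` distinct points of a finite dimensional `ℓ_p`. -/
def FinAdm (p : ℝ≥0∞) [Fact (1 ≤ p)] (n : ℕ) (D : ℝ) (d : ℕ) : Prop :=
  ∀ (ι J : Type) [Fintype ι] [Fintype J] (y : ι → PiLp p (fun _ : J => ℝ)),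
    Fintype.card ι = n → Function.Injective y →
      ∃ g : ι → PiLp p (fun _ : Fin d => ℝ), ∃ s : ℝ, 0 < s ∧ ∀ i j,
        s * ‖y i - y j‖ ≤ ‖g i - g j‖ ∧ ‖g i - g j‖ ≤ D * s * ‖y i - y j‖

variable {p : ℝ≥0∞} [Fact (1 ≤ p)]

/-- finite dimensional `ℓ_p` is an `L_p(μ)` in every universe -/
theorem exists_toLp (hp : p ≠ ∞) (J : Type) [Fintype J] :
    ∃ (Ω : Type u) (_ : MeasurableSpace Ω) (μ : Measure Ω)
      (T : PiLp p (fun _ : J => ℝ) → Lp ℝ p μ), ∀ v w, ‖T v - T w‖ = ‖v - w‖ := by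
  let : MeasurableSpace (ULift.{u} J) := ⊤
  have : DiscreteMeasurableSpace (ULift.{u} J) := ⟨fun _ => trivial⟩
  have hP := toReal_pos' (p := p) hp
  have hmem : ∀ v : PiLp p (fun _ : J => ℝ),
      MemLp (fun ω : ULift.{u} J => v ω.down) p Measure.count := fun v => MemLp.of_discrete
  refine ⟨ULift.{u} J, inferInstance, Measure.count, fun v => (hmem v).toLp _, fun v w => ?_⟩
  refine (Real.rpow_left_inj (norm_nonneg _) (norm_nonneg _) hP.ne').1 ?_
  rw [← integral_sub_rpow hp, norm_rpow_sum hp]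
  have h1 : (fun ω : ULift.{u} J => |((hmem v).toLp _ : Lp ℝ p Measure.count) ω -
      ((hmem w).toLp _ : Lp ℝ p Measure.count) ω| ^ p.toReal) =ᵐ[Measure.count]
      fun ω : ULift.{u} J => |v ω.down - w ω.down| ^ p.toReal := by
    filter_upwards [(hmem v).coeFn_toLp, (hmem w).coeFn_toLp] with ω h1 h2
    rw [h1, h2]
  rw [integral_congr_ae h1, integral_count]
  exact Fintype.sum_equiv Equiv.ulift _ _ fun ω => rfl

theorem Adm.finAdm (hp : p ≠ ∞) {n d : ℕ} {D : ℝ} (h : Adm.{u} p n D d) : FinAdm p n D d := by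
  classical
  intro ι J _ _ y hcard hy
  obtain ⟨Ω, _, μ, T, hT⟩ := exists_toLp.{u} hp J
  have hTinj : Function.Injective T := by
    intro v w hvw
    have := hT v w
    rw [hvw, sub_self, norm_zero] at this
    exact sub_eq_zero.1 (norm_eq_zero.1 this.symm)
  obtain ⟨f, s, hs, hf⟩ := h Ω μ (Finset.univ.image (T ∘ y)) (by
    rw [Finset.card_image_of_injective _ (hTinj.comp hy), Finset.card_univ, hcard])
  refine ⟨fun i => f (T (y i)), s, hs, fun i j => ?_⟩
  have := hf _ (Finset.mem_image_of_mem (T ∘ y) (Finset.mem_univ i)) _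
    (Finset.mem_image_of_mem (T ∘ y) (Finset.mem_univ j))
  simpa only [Function.comp, hT] using this

theorem FinAdm.adm (hp : p ≠ ∞) {n d : ℕ} {D : ℝ} (h : FinAdm p n D d) : Adm.{u} p n D d := by
  classical
  intro Ω _ μ X hX
  obtain ⟨F, hF⟩ := exists_isometric hp X
  set e := X.equivFin with he
  obtain ⟨g, s, hs, hg⟩ := h (Fin X.card) (Fin (X.card.choose 2))
    (fun i => F (e.symm i : X)) (by rw [Fintype.card_fin, hX]) (by
      intro i j hij
      have h1 := hF _ (e.symm i).2 _ (e.symm j).2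
      have hij' : F (e.symm i : X) = F (e.symm j : X) := hij
      rw [hij', sub_self, norm_zero] at h1
      exact e.symm.injective (Subtype.ext (sub_eq_zero.1 (norm_eq_zero.1 h1.symm))))
  refine ⟨fun x => if hx : x ∈ X then g (e ⟨x, hx⟩) else 0, s, hs, fun x hx y hy => ?_⟩
  have h1 := hg (e ⟨x, hx⟩) (e ⟨y, hy⟩)
  simp only [Equiv.symm_apply_apply, hF x hx y hy] at h1
  simpa only [dif_pos hx, dif_pos hy] using h1

/-- the universe plays no role -/
theorem adm_iff (hp : p ≠ ∞) {n d : ℕ} {D : ℝ} : Adm.{u} p n D d ↔ Adm.{0} p n D d :=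
  ⟨fun h => (h.finAdm hp).adm hp, fun h => (h.finAdm hp).adm hp⟩

/-- the upper bound for isometric embeddings -/
theorem adm_choose (hp : p ≠ ∞) (n : ℕ) {D : ℝ} (hD : 1 ≤ D) : Adm.{u} p n D (n.choose 2) := by
  intro Ω _ μ X hX
  subst hX
  obtain ⟨F, hF⟩ := exists_isometric hp X
  refine ⟨F, 1, one_pos, fun x hx y hy => ?_⟩
  rw [hF x hx y hy]
  have := norm_nonneg (x - y)
  constructor <;> nlinarith

/-- The volume argument. -/
theorem card_le_of_sep {E : Type*} [NormedAddCommGroup E] [NormedSpace ℝ E]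
    [FiniteDimensional ℝ E] {ι : Type*} [Fintype ι] (g : ι → E) {R : ℝ} (hR : 0 ≤ R)
    (hs : ∀ i, ‖g i‖ ≤ R) (h : ∀ i j, i ≠ j → 1 ≤ ‖g i - g j‖) :
    (Fintype.card ι : ℝ) ≤ (1 + 2 * R) ^ Module.finrank ℝ E := by
  borelize E
  let μ : Measure E := Measure.addHaar
  have ρpos : 0 < R + 1 / 2 := by linarith
  have hdisj : Pairwise (Function.onFun Disjoint fun i => ball (g i) (1 / 2 : ℝ)) := by
    intro i j hij
    apply ball_disjoint_ball
    rw [dist_eq_norm]
    linarith [h i j hij]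
  have hsub : ⋃ i, ball (g i) (1 / 2 : ℝ) ⊆ ball (0 : E) (R + 1 / 2) := by
    refine Set.iUnion_subset fun i => ?_
    apply ball_subset_ball'
    rw [dist_zero_right]
    linarith [hs i]
  have I : (Fintype.card ι : ℝ≥0∞) * ENNReal.ofReal ((1 / 2 : ℝ) ^ Module.finrank ℝ E) *
      μ (ball 0 1) ≤ ENNReal.ofReal ((R + 1 / 2) ^ Module.finrank ℝ E) * μ (ball 0 1) :=
    calc (Fintype.card ι : ℝ≥0∞) * ENNReal.ofReal ((1 / 2 : ℝ) ^ Module.finrank ℝ E) *
          μ (ball 0 1) = μ (⋃ i, ball (g i) (1 / 2 : ℝ)) := by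
          rw [measure_iUnion hdisj fun _ => measurableSet_ball, tsum_fintype]
          simp only [μ.addHaar_ball_of_pos _ (show (0 : ℝ) < 1 / 2 by norm_num)]
          simp only [Finset.sum_const, Finset.card_univ, nsmul_eq_mul, mul_assoc]
      _ ≤ μ (ball (0 : E) (R + 1 / 2)) := measure_mono hsub
      _ = ENNReal.ofReal ((R + 1 / 2) ^ Module.finrank ℝ E) * μ (ball 0 1) := by
          simp only [μ.addHaar_ball_of_pos _ ρpos]
  have J : (Fintype.card ι : ℝ≥0∞) * ENNReal.ofReal ((1 / 2 : ℝ) ^ Module.finrank ℝ E) ≤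
      ENNReal.ofReal ((R + 1 / 2) ^ Module.finrank ℝ E) :=
    (ENNReal.mul_le_mul_iff_left (measure_ball_pos _ _ zero_lt_one).ne' measure_ball_lt_top.ne).1 I
  have K := ENNReal.toReal_le_of_le_ofReal (pow_nonneg ρpos.le _) J
  rw [ENNReal.toReal_mul, ENNReal.toReal_natCast, ENNReal.toReal_ofReal (by positivity)] at K
  have e : (R + 1 / 2) ^ Module.finrank ℝ E =
      (1 + 2 * R) ^ Module.finrank ℝ E * (1 / 2 : ℝ) ^ Module.finrank ℝ E := by
    rw [← mul_pow]
    congr 1
    ring
  rw [e] at K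
  exact le_of_mul_le_mul_right K (by positivity)

/-- the volume bound `n ≤ (1 + 2 D) ^ d` -/
theorem FinAdm.le_pow (hp : p ≠ ∞) {n d : ℕ} {D : ℝ} (hD : 0 ≤ D) (h : FinAdm p n D d) :
    (n : ℝ) ≤ (1 + 2 * D) ^ d := by
  classical
  have hP := toReal_pos' (p := p) hp
  rcases n with _ | n
  · simp only [Nat.cast_zero]
    positivity
  set y : Fin (n + 1) → PiLp p (fun _ : Fin (n + 1) => ℝ) :=
    fun i => WithLp.toLp p (Pi.single i 1) with hy
  set r : ℝ := 2 ^ (1 / p.toReal) with hr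
  have hr0 : 0 < r := Real.rpow_pos_of_pos (by norm_num) _
  have hdist : ∀ i j, i ≠ j → ‖y i - y j‖ = r := by
    intro i j hij
    refine (Real.rpow_left_inj (norm_nonneg _) hr0.le hP.ne').1 ?_
    rw [norm_rpow_sum hp, hr, ← Real.rpow_mul (by norm_num), one_div, inv_mul_cancel₀ hP.ne',
      Real.rpow_one]
    have h1 : ∀ k, |(y i - y j) k| ^ p.toReal =
        (if k = i then 1 else 0) + (if k = j then 1 else 0) := by
      intro k
      simp only [hy, PiLp.sub_apply, Pi.single_apply]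
      by_cases h1 : k = i <;> by_cases h2 : k = j
      · exact absurd (h1.symm.trans h2) hij
      · simp [h1, hij]
      · simp [h2, hij.symm]
      · simp [h1, h2, Real.zero_rpow hP.ne']
    simp only [h1, Finset.sum_add_distrib, Finset.sum_ite_eq', Finset.mem_univ, if_true]
    norm_num
  obtain ⟨g, s, hs, hg⟩ := h (Fin (n + 1)) (Fin (n + 1)) y (Fintype.card_fin _) (by
    intro i j hij
    by_contra hne
    have := hdist i j hne
    rw [hij, sub_self, norm_zero] at this
    exact hr0.ne this)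
  have hsr : 0 < s * r := mul_pos hs hr0
  have key := card_le_of_sep (fun i => (s * r)⁻¹ • (g i - g 0)) hD (fun i => by
      rw [norm_smul, Real.norm_eq_abs, abs_of_pos (inv_pos.2 hsr), inv_mul_le_iff₀ hsr]
      rcases eq_or_ne i 0 with rfl | hi
      · rw [sub_self, norm_zero]; positivity
      · have := (hg i 0).2
        rw [hdist i 0 hi] at this
        linarith)
    (fun i j hij => by
      rw [← smul_sub, sub_sub_sub_cancel_right, norm_smul, Real.norm_eq_abs,
        abs_of_pos (inv_pos.2 hsr), le_inv_mul_iff₀ hsr, mul_one]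
      have := (hg i j).1
      rwa [hdist i j hij] at this)
  have hfin : Module.finrank ℝ (PiLp p (fun _ : Fin d => ℝ)) = d := by
    rw [(WithLp.linearEquiv p ℝ (Fin d → ℝ)).finrank_eq, Module.finrank_fintype_fun_eq_card,
      Fintype.card_fin]
  rwa [Fintype.card_fin, hfin] at key

/-- The sign attached to a Boolean value. -/
noncomputable def sgn (b : Bool) : ℝ := if b then -1 else 1

theorem abs_sgn (b : Bool) : |sgn b| = 1 := by cases b <;> simp [sgn]

theorem abs_sgn_sub {P : ℝ} (hP : 0 < P) (a b : Bool) :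
    |sgn a - sgn b| ^ P = 2 ^ P * if a = b then 0 else 1 := by
  cases a <;> cases b <;> simp [sgn, Real.zero_rpow hP.ne'] <;> norm_num

theorem abs_sgn_add {P : ℝ} (hP : 0 < P) (a b : Bool) :
    |sgn a - sgn b| ^ P + |sgn a + sgn b| ^ P = 2 ^ P := by
  cases a <;> cases b <;> simp [sgn, Real.zero_rpow hP.ne'] <;> norm_num

/-- The lower bound for isometric embeddings. -/
theorem FinAdm.exact_lower (hp1 : 1 < p) (hp : p ≠ ∞) (hp2 : p ≠ 2) {m d : ℕ}
    (h : FinAdm p (m + 3) 1 d) : (m + 1).choose 2 + 1 ≤ d := by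
  classical
  have hP := toReal_pos' (p := p) hp
  have hP1 : 1 < p.toReal := by
    have := (ENNReal.toReal_lt_toReal ENNReal.one_ne_top hp).2 hp1
    simpa using this
  have hP2 : p.toReal ≠ 2 := by
    intro h2
    apply hp2
    rw [← ENNReal.ofReal_toReal hp, h2]
    simp
  obtain ⟨w, hw, hgen⟩ := exists_generic (m + 1)
  set r : (Fin (m + 1) → Bool) → ℝ := fun σ => w σ ^ (1 / p.toReal) with hr
  have hr0 : ∀ σ, 0 < r σ := fun σ => Real.rpow_pos_of_pos (hw σ) _
  have hrP : ∀ σ t, |r σ * t| ^ p.toReal = w σ * |t| ^ p.toReal := by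
    intro σ t
    rw [abs_mul, abs_of_pos (hr0 σ), Real.mul_rpow (hr0 σ).le (abs_nonneg _), hr,
      ← Real.rpow_mul (hw σ).le, one_div, inv_mul_cancel₀ hP.ne', Real.rpow_one]
  -- the coordinates of the points `0`, `-x 0`, `x i`
  set e : Option (Option (Fin (m + 1))) → (Fin (m + 1) → Bool) → ℝ := fun o σ =>
    o.elim 0 fun o' => o'.elim (- sgn (σ 0)) fun i => sgn (σ i) with he
  set y : Option (Option (Fin (m + 1))) → PiLp p (fun _ : Fin (m + 1) → Bool => ℝ) :=
    fun o => WithLp.toLp p fun σ => r σ * e o σ with hy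
  have hyd : ∀ o o', ‖y o - y o'‖ ^ p.toReal = ∑ σ, w σ * |e o σ - e o' σ| ^ p.toReal := by
    intro o o'
    rw [norm_rpow_sum hp]
    refine Finset.sum_congr rfl fun σ _ => ?_
    rw [← hrP]
    simp only [hy, PiLp.sub_apply, mul_sub]
  have hinj : Function.Injective y := by
    intro o o' hoo
    have h1 : ∀ σ, e o σ = e o' σ := by
      intro σ
      have h2 : y o σ = y o' σ := by rw [hoo]
      exact mul_left_cancel₀ (hr0 σ).ne' h2
    have h0 := h1 fun _ => false
    rcases o with _ | _ | i <;> rcases o' with _ | _ | j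
    · rfl
    · simp [he, sgn] at h0
    · simp [he, sgn] at h0
    · simp [he, sgn] at h0
    · rfl
    · simp only [he, sgn, Option.elim] at h0
      norm_num at h0
    · simp [he, sgn] at h0
    · simp only [he, sgn, Option.elim] at h0
      norm_num at h0
    · have h3 := h1 fun l => decide (l = i)
      by_contra hne
      have hji : j ≠ i := by
        rintro rfl
        exact hne rfl
      simp only [he, sgn, Option.elim, decide_true, if_true, hji, decide_false] at h3
      norm_num at h3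
  obtain ⟨g, s, hs, hg⟩ := h _ _ y (by simp) hinj
  have hgd : ∀ o o', ∑ c, |s⁻¹ * (g o c - g none c) - s⁻¹ * (g o' c - g none c)| ^ p.toReal =
      ∑ σ, w σ * |e o σ - e o' σ| ^ p.toReal := by
    intro o o'
    have h1 : ‖g o - g o'‖ = s * ‖y o - y o'‖ := by
      obtain ⟨h2, h3⟩ := hg o o'
      rw [one_mul] at h3
      exact le_antisymm h3 h2
    have h2 : ‖s⁻¹ • (g o - g o')‖ = ‖y o - y o'‖ := by
      rw [norm_smul, h1, Real.norm_eq_abs, abs_of_pos (inv_pos.2 hs), inv_mul_cancel_left₀ hs.ne']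
    rw [← hyd, ← h2, norm_rpow_sum hp]
    refine Finset.sum_congr rfl fun c _ => ?_
    simp only [PiLp.smul_apply, PiLp.sub_apply, smul_eq_mul]
    congr 2
    ring
  set a : Fin (m + 1) → Fin d → ℝ := fun i c => s⁻¹ * (g (some (some i)) c - g none c) with ha
  set b : Fin d → ℝ := fun c => s⁻¹ * (g (some none) c - g none c) with hb
  have ha1 : ∀ i, ∑ c, |a i c| ^ p.toReal = ∑ σ, w σ := by
    intro i
    have := hgd (some (some i)) none
    simpa only [sub_self, mul_zero, sub_zero, he, Option.elim, abs_sgn, Real.one_rpow,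
      mul_one] using this
  have hb1 : ∑ c, |b c| ^ p.toReal = ∑ σ, w σ := by
    have := hgd (some none) none
    simpa only [sub_self, mul_zero, sub_zero, he, Option.elim, abs_neg, abs_sgn, Real.one_rpow,
      mul_one] using this
  have haa : ∀ i j, ∑ c, |a i c - a j c| ^ p.toReal =
      ∑ σ, w σ * |sgn (σ i) - sgn (σ j)| ^ p.toReal := fun i j =>
    hgd (some (some i)) (some (some j))
  have hab : ∀ i, ∑ c, |a i c - b c| ^ p.toReal =
      ∑ σ, w σ * |sgn (σ i) + sgn (σ 0)| ^ p.toReal := by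
    intro i
    have := hgd (some (some i)) (some none)
    simpa only [he, Option.elim, sub_neg_eq_add] using this
  obtain ⟨τ, hτ⟩ := rigid hP1 hP2 a b (∑ σ, w σ) ha1 hb1 (fun i => by
    rw [haa, hab, ← Finset.sum_add_distrib, Finset.mul_sum]
    refine Finset.sum_congr rfl fun σ _ => ?_
    rw [← mul_add, abs_sgn_add hP, mul_comm])
  refine hgen d τ (fun c => |a 0 c| ^ p.toReal) ?_
  funext o
  rcases o with _ | ⟨⟨i, j⟩, hij⟩
  · simp only [Finset.sum_apply, Pi.smul_apply, cutVec, smul_eq_mul, mul_one]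
    exact ha1 0
  · simp only [Finset.sum_apply, Pi.smul_apply, cutVec, smul_eq_mul]
    have h2P : (0 : ℝ) < 2 ^ p.toReal := Real.rpow_pos_of_pos (by norm_num) _
    refine mul_left_cancel₀ h2P.ne' ?_
    have h1 := haa i j
    simp only [hτ, abs_sgn_sub hP] at h1
    rw [Finset.mul_sum, Finset.mul_sum, h1]
    refine Finset.sum_congr rfl fun σ _ => ?_
    ring

end Vale.Agent.P249Z
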