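import Vale.Agent.P249Z.Ball
import Vale.Agent.P249Z.Clark
import Mathlib.MeasureTheory.Measure.Lebesgue.EqHaar

/-!
# P249Z: a generic point of the cone over the cut polytope, and rigidity of sign vectors
-/

open MeasureTheory
open scoped BigOperators

namespace Vale.Agent.P249Z

/-- The vector `(1, δ_σ)`, where `δ_σ` is the cut semimetric of `σ`. -/
noncomputable def cutVec {m : ℕ} (σ : Fin m → Bool) : Option (Pairs m) → ℝ
  | none => 1
  | some q => if σ q.1.1 = σ q.1.2 then 0 else 1

theorem span_cutVec (m : ℕ) :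
    Submodule.span ℝ (Set.range (cutVec : (Fin m → Bool) → Option (Pairs m) → ℝ)) = ⊤ := by
  classical
  set V := Submodule.span ℝ (Set.range (cutVec : (Fin m → Bool) → Option (Pairs m) → ℝ)) with hV
  have hmem : ∀ σ : Fin m → Bool, cutVec σ ∈ V := fun σ => Submodule.subset_span ⟨σ, rfl⟩
  have hsingle : ∀ o : Option (Pairs m), (Pi.single o 1 : Option (Pairs m) → ℝ) ∈ V := by
    intro o
    rcases o with _ | ⟨⟨i, j⟩, hij⟩
    · have : (Pi.single none 1 : Option (Pairs m) → ℝ) = cutVec (fun _ => false) := by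
        funext o
        rcases o with _ | q
        · simp [cutVec]
        · simp [cutVec]
      rw [this]
      exact hmem _
    · have hij' : i < j := hij
      have : (Pi.single (some ⟨(i, j), hij⟩) 1 : Option (Pairs m) → ℝ) =
          (1 / 2 : ℝ) • (cutVec (fun l => decide (l = i)) + cutVec (fun l => decide (l = j)) -
            cutVec (fun l => decide (l = i ∨ l = j)) - cutVec (fun _ => false)) := by
        funext o
        rcases o with _ | ⟨⟨a, b⟩, hab⟩
        · simp [cutVec]
        · have hab' : a < b := hab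
          simp only [Pi.single_apply, Option.some.injEq, Subtype.mk.injEq, Prod.mk.injEq,
            Pi.smul_apply, Pi.sub_apply, Pi.add_apply, cutVec, smul_eq_mul, decide_eq_decide,
            if_true]
          by_cases h1 : a = i <;> by_cases h2 : a = j <;> by_cases h3 : b = i <;>
            by_cases h4 : b = j <;> simp [h1, h2, h3, h4, hij'.ne, hij'.ne'] <;>
              first | omega | norm_num
      rw [this]
      exact V.smul_mem _ (V.sub_mem (V.sub_mem (V.add_mem (hmem _) (hmem _)) (hmem _)) (hmem _))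
  rw [eq_top_iff]
  intro v _
  rw [pi_eq_sum_univ' v]
  exact V.sum_mem fun o _ => V.smul_mem _ (hsingle o)

/-- A positive combination of all cut vectors which is not a combination of fewer than
`m.choose 2 + 1` of them. -/
theorem exists_generic (m : ℕ) : ∃ w : (Fin m → Bool) → ℝ, (∀ σ, 0 < w σ) ∧
    ∀ (d : ℕ) (τ : Fin d → Fin m → Bool) (a : Fin d → ℝ),
      ∑ c, a c • cutVec (τ c) = ∑ σ, w σ • cutVec σ → m.choose 2 + 1 ≤ d := by
  classical
  set L : ((Fin m → Bool) → ℝ) →ₗ[ℝ] (Option (Pairs m) → ℝ) :=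
    Fintype.linearCombination ℝ cutVec with hL
  have hLr : LinearMap.range L = ⊤ := by
    rw [hL, Fintype.range_linearCombination, span_cutVec]
  set V : Finset (Fin m → Bool) → Submodule ℝ ((Fin m → Bool) → ℝ) := fun T =>
    (Submodule.span ℝ ((T.image cutVec : Finset (Option (Pairs m) → ℝ)) :
      Set (Option (Pairs m) → ℝ))).comap L with hV
  have hne : ∀ T : Finset (Fin m → Bool), T.card < m.choose 2 + 1 → V T ≠ ⊤ := by
    intro T hT h
    have h1 : LinearMap.range L ≤ Submodule.span ℝ
        ((T.image cutVec : Finset (Option (Pairs m) → ℝ)) : Set (Option (Pairs m) → ℝ)) :=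
      LinearMap.range_le_iff_comap.2 h
    rw [hLr] at h1
    have h2 := Submodule.finrank_mono h1
    have h3 := finrank_span_finset_le_card (R := ℝ) (T.image cutVec)
    have h4 : (T.image cutVec).card ≤ T.card := Finset.card_image_le
    rw [finrank_top, Module.finrank_fintype_fun_eq_card, Fintype.card_option, card_pairs] at h2
    have h5 : Module.finrank ℝ (Submodule.span ℝ
        ((T.image cutVec : Finset (Option (Pairs m) → ℝ)) : Set (Option (Pairs m) → ℝ))) ≤
        (T.image cutVec).card := h3
    omega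
  have hnull : volume (⋃ T : {T : Finset (Fin m → Bool) // T.card < m.choose 2 + 1},
      ((V T.1 : Submodule ℝ ((Fin m → Bool) → ℝ)) : Set ((Fin m → Bool) → ℝ))) = 0 :=
    measure_iUnion_null fun T => Measure.addHaar_submodule volume _ (hne T.1 T.2)
  have hopen : IsOpen {w : (Fin m → Bool) → ℝ | ∀ σ, 0 < w σ} := by
    rw [Set.ofPred_forall]
    exact isOpen_iInter_of_finite fun σ => isOpen_lt continuous_const (continuous_apply σ)
  have hpos : 0 < volume {w : (Fin m → Bool) → ℝ | ∀ σ, 0 < w σ} :=
    hopen.measure_pos volume ⟨fun _ => 1, fun _ => one_pos⟩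
  obtain ⟨w, hw, hw'⟩ : ∃ w : (Fin m → Bool) → ℝ, (∀ σ, 0 < w σ) ∧
      w ∉ ⋃ T : {T : Finset (Fin m → Bool) // T.card < m.choose 2 + 1},
        ((V T.1 : Submodule ℝ ((Fin m → Bool) → ℝ)) : Set ((Fin m → Bool) → ℝ)) := by
    by_contra h
    push Not at h
    have := measure_mono_null (fun w hw => h w hw) hnull
    exact hpos.ne' this
  refine ⟨w, hw, fun d τ a h => ?_⟩
  by_contra hd
  have hcard : (Finset.univ.image τ).card < m.choose 2 + 1 := by
    have : (Finset.univ.image τ).card ≤ d := Finset.card_image_le.trans (by simp)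
    omega
  refine hw' (Set.mem_iUnion.2 ⟨⟨_, hcard⟩, ?_⟩)
  simp only [hV, SetLike.mem_coe, Submodule.mem_comap, hL, Fintype.linearCombination_apply]
  rw [← h]
  refine Submodule.sum_mem _ fun c _ => Submodule.smul_mem _ _ (Submodule.subset_span ?_)
  simp only [Finset.coe_image, Finset.coe_univ, Set.image_univ]
  exact ⟨τ c, ⟨c, rfl⟩, rfl⟩

/-- Rigidity: vectors with the distances of sign vectors are weighted sign vectors. -/
theorem rigid {P : ℝ} (hP1 : 1 < P) (hP2 : P ≠ 2) {m d : ℕ} (a : Fin (m + 1) → Fin d → ℝ)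
    (b : Fin d → ℝ) (W : ℝ) (ha : ∀ i, ∑ c, |a i c| ^ P = W) (hb : ∑ c, |b c| ^ P = W)
    (hab : ∀ i, ∑ c, |a i c - a 0 c| ^ P + ∑ c, |a i c - b c| ^ P = 2 ^ P * W) :
    ∃ τ : Fin d → Fin (m + 1) → Bool, ∀ i j c,
      |a i c - a j c| ^ P = 2 ^ P * (|a 0 c| ^ P * if τ c i = τ c j then 0 else 1) := by
  classical
  have hP0 : 0 < P := by linarith
  have hb' : ∀ c, b c = - a 0 c := by
    refine eq_neg_of_sums hP1 (a 0) b ?_
    have h := hab 0
    simp only [sub_self, abs_zero, Real.zero_rpow hP0.ne', Finset.sum_const_zero, zero_add] at h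
    rw [h, ha, hb]
    ring
  have h2 : ∀ t : ℝ, |2 * t| ^ P = 2 ^ P * |t| ^ P := fun t => by
    rw [abs_mul, abs_two, Real.mul_rpow (by norm_num) (abs_nonneg _)]
  have hsign : ∀ i c, a i c = a 0 c ∨ a i c = - a 0 c := by
    intro i c
    have h := mul_eq_zero_of_clarkson hP0 hP2 (fun c => a i c + a 0 c) (fun c => a i c - a 0 c)
      (by
        have e1 : ∀ c, a i c + a 0 c + (a i c - a 0 c) = 2 * a i c := fun c => by ring
        have e2 : ∀ c, a i c + a 0 c - (a i c - a 0 c) = 2 * a 0 c := fun c => by ring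
        have h3 := hab i
        simp only [hb', sub_neg_eq_add] at h3
        simp only [e1, e2, h2, ← Finset.mul_sum, ha]
        linarith) c
    rcases mul_eq_zero.1 h with h | h
    · right; linarith
    · left; linarith
  refine ⟨fun c i => decide (a i c = a 0 c), fun i j c => ?_⟩
  simp only [decide_eq_decide]
  by_cases hi : a i c = a 0 c <;> by_cases hj : a j c = a 0 c
  · simp [hi, hj, Real.zero_rpow hP0.ne']
  · have hj' := (hsign j c).resolve_left hj
    have e : a i c - a j c = 2 * a 0 c := by rw [hi, hj']; ring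
    rw [e, h2]
    simp [hi, hj]
  · have hi' := (hsign i c).resolve_left hi
    have e : a i c - a j c = 2 * (- a 0 c) := by rw [hi', hj]; ring
    rw [e, h2, abs_neg]
    simp [hi, hj]
  · have hi' := (hsign i c).resolve_left hi
    have hj' := (hsign j c).resolve_left hj
    have e : a i c - a j c = 0 := by rw [hi', hj']; ring
    rw [e]
    simp [hi, hj, Real.zero_rpow hP0.ne']

end Vale.Agent.P249Z
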