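import Vale.Agent.P249Z.FinAdm
import Vale.Agent.P249.TP3.Main
import Vale.Agent.P249.H75.DualAll
import Vale.Agent.P249.H560.Main

/-!
# P249Z: the dimension `d_p(n, D)` for measure spaces in an arbitrary universe
-/

open MeasureTheory Filter Asymptotics Topology
open scoped ENNReal

universe u

namespace Vale.Agent.P249Z

/-- `d_p(n, D)` -/
noncomputable def dimU (p : ℝ≥0∞) [Fact (1 ≤ p)] (n : ℕ) (D : ℝ) : ℕ :=
  sInf {d : ℕ | Adm.{u} p n D d}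

variable {p : ℝ≥0∞} [Fact (1 ≤ p)]

theorem dimU_eq (hp : p ≠ ∞) (n : ℕ) (D : ℝ) : dimU.{u} p n D = Vale.Agent.P249.dimLp p n D := by
  unfold dimU Vale.Agent.P249.dimLp
  congr 1
  ext d
  exact adm_iff hp

theorem dimU_isLeast (hp : p ≠ ∞) (n : ℕ) {D : ℝ} (hD : 1 ≤ D) :
    IsLeast {d : ℕ | Adm.{u} p n D d} (dimU.{u} p n D) :=
  ⟨Nat.sInf_mem (s := {d : ℕ | Adm.{u} p n D d}) ⟨_, adm_choose hp n hD⟩,
    fun _ hd => Nat.sInf_le hd⟩

theorem dimU_le_choose (hp : p ≠ ∞) (n : ℕ) {D : ℝ} (hD : 1 ≤ D) :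
    dimU.{u} p n D ≤ n.choose 2 := (dimU_isLeast hp n hD).2 (adm_choose hp n hD)

theorem le_pow_dimU (hp : p ≠ ∞) (n : ℕ) {D : ℝ} (hD : 1 ≤ D) :
    (n : ℝ) ≤ (1 + 2 * D) ^ dimU.{u} p n D :=
  ((dimU_isLeast hp n hD).1.finAdm hp).le_pow hp (by linarith)

theorem log_div_le_dimU (hp : p ≠ ∞) (n : ℕ) {D : ℝ} (hD : 1 ≤ D) :
    Real.log n / Real.log (1 + 2 * D) ≤ dimU.{u} p n D := by
  have h1 : 0 < Real.log (1 + 2 * D) := Real.log_pos (by linarith)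
  rcases Nat.eq_zero_or_pos n with rfl | hn
  · simp
  rw [div_le_iff₀ h1, ← Real.log_pow]
  exact Real.log_le_log (by exact_mod_cast hn) (le_pow_dimU hp n hD)

theorem one_le_dimU (hp : p ≠ ∞) {n : ℕ} (hn : 2 ≤ n) {D : ℝ} (hD : 1 ≤ D) :
    1 ≤ dimU.{u} p n D := by
  by_contra h
  have h0 : dimU.{u} p n D = 0 := by omega
  have h1 := le_pow_dimU.{u} hp n hD
  rw [h0, pow_zero] at h1
  have : (2 : ℝ) ≤ n := by exact_mod_cast hn
  linarith

theorem choose_le_dimU (hp1 : 1 < p) (hp : p ≠ ∞) (hp2 : p ≠ 2) {n : ℕ} (hn : 2 ≤ n) :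
    (n - 2).choose 2 + 1 ≤ dimU.{u} p n 1 := by
  rcases hn.eq_or_lt with rfl | h3
  · simpa using one_le_dimU.{u} hp le_rfl le_rfl
  · obtain ⟨m, rfl⟩ : ∃ m, n = m + 3 := ⟨n - 3, by omega⟩
    exact ((dimU_isLeast hp (m + 3) le_rfl).1.finAdm hp).exact_lower hp1 hp hp2

theorem tendsto_dimU_one (hp1 : 1 < p) (hp : p ≠ ∞) (hp2 : p ≠ 2) :
    Tendsto (fun n : ℕ => (dimU.{u} p n 1 : ℝ) / (n : ℝ) ^ 2) atTop (𝓝 (1 / 2)) := by
  have hinv : Tendsto (fun n : ℕ => ((n : ℝ))⁻¹) atTop (𝓝 0) := tendsto_inv_atTop_nhds_zero_nat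
  have hlow : Tendsto (fun n : ℕ => (1 - 2 * ((n : ℝ))⁻¹) * (1 - 3 * ((n : ℝ))⁻¹) / 2) atTop
      (𝓝 (1 / 2)) := by
    have := (((hinv.const_mul 2).const_sub 1).mul ((hinv.const_mul 3).const_sub 1)).div_const 2
    simpa using this
  refine tendsto_of_tendsto_of_tendsto_of_le_of_le' hlow tendsto_const_nhds ?_ ?_
  · filter_upwards [eventually_ge_atTop 2] with n hn
    have hn0 : (0 : ℝ) < n := by exact_mod_cast (by omega : 0 < n)
    have h1 : (((n - 2).choose 2 + 1 : ℕ) : ℝ) ≤ dimU.{u} p n 1 := by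
      exact_mod_cast choose_le_dimU.{u} hp1 hp hp2 hn
    rw [Nat.cast_add, Nat.cast_choose_two, Nat.cast_sub hn] at h1
    rw [le_div_iff₀ (by positivity)]
    have e : (1 - 2 * ((n : ℝ))⁻¹) * (1 - 3 * ((n : ℝ))⁻¹) / 2 * (n : ℝ) ^ 2 =
        ((n : ℝ) - 2) * ((n : ℝ) - 2 - 1) / 2 := by
      field_simp
      ring
    rw [e]
    push_cast at h1
    linarith
  · filter_upwards [eventually_ge_atTop 2] with n hn
    have hn0 : (0 : ℝ) < n := by exact_mod_cast (by omega : 0 < n)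
    have h1 : (dimU.{u} p n 1 : ℝ) ≤ (n.choose 2 : ℕ) := by
      exact_mod_cast dimU_le_choose.{u} hp n le_rfl
    rw [Nat.cast_choose_two] at h1
    rw [div_le_iff₀ (by positivity)]
    nlinarith

theorem dimU_littleO (hp1 : 1 < p) (hp : p ≠ ∞) {D : ℝ} (hD : 1 < D) {κ : ℝ} (hκ : 0 < κ) :
    (fun n : ℕ => (dimU.{u} p n D : ℝ)) =o[atTop] (fun n : ℕ => (n : ℝ) ^ κ) := by
  simp only [dimU_eq hp]
  exact Vale.Agent.P249.H560.subpoly_fixed p hp1 hp D hD κ hκ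

theorem tendsto_log_dimU (hp1 : 1 < p) (hp : p ≠ ∞) {D : ℝ} (hD : 1 < D) :
    Tendsto (fun n : ℕ => Real.log (dimU.{u} p n D) / Real.log n) atTop (𝓝 0) := by
  rw [tendsto_order]
  refine ⟨fun a ha => ?_, fun a ha => ?_⟩
  · filter_upwards with n
    exact ha.trans_le (div_nonneg (Real.log_natCast_nonneg _) (Real.log_natCast_nonneg _))
  · have h := (dimU_littleO.{u} hp1 hp hD (half_pos ha)).bound one_pos
    filter_upwards [h, eventually_ge_atTop 2] with n h1 hn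
    have hn1 : (1 : ℝ) < n := by exact_mod_cast (by omega : 1 < n)
    have hlog : 0 < Real.log n := Real.log_pos hn1
    have hd : (1 : ℝ) ≤ dimU.{u} p n D := by exact_mod_cast one_le_dimU.{u} hp hn hD.le
    rw [one_mul, Real.norm_of_nonneg (by linarith),
      Real.norm_of_nonneg (Real.rpow_nonneg (by linarith) _)] at h1
    have h2 := Real.log_le_log (by linarith) h1
    rw [Real.log_rpow (by linarith)] at h2
    rw [div_lt_iff₀ hlog]
    nlinarith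

theorem dimU_anti (hp : p ≠ ∞) (n : ℕ) {D D' : ℝ} (hD : 1 ≤ D) (h : D ≤ D') :
    dimU.{u} p n D' ≤ dimU.{u} p n D := by
  refine (dimU_isLeast hp n (hD.trans h)).2 ?_
  intro Ω _ μ X hX
  obtain ⟨f, s, hs, hf⟩ := (dimU_isLeast.{u} hp n hD).1 Ω μ X hX
  exact ⟨f, s, hs, fun x hx y hy => ⟨(hf x hx y hy).1, (hf x hx y hy).2.trans
    (mul_le_mul_of_nonneg_right (mul_le_mul_of_nonneg_right h hs.le) (norm_nonneg _))⟩⟩

/-- the upper bound, uniformly in `n` and `ε` -/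
theorem dimU_le_exp (hp1 : 1 < p) (hp : p ≠ ∞) (hp2 : p ≠ 2) :
    ∃ C : ℝ, 0 < C ∧ ∀ n : ℕ, 2 ≤ n → ∀ ε : ℝ, 0 < ε → ε ≤ 1 →
      (dimU.{u} p n (1 + ε) : ℝ) ≤ Real.exp (C * Real.log n ^ |1 - 2 / p.toReal| / ε) := by
  obtain ⟨C, hC, h⟩ := Vale.Agent.P249.H75.dual p hp1 hp hp2
  set θ : ℝ := |1 - 2 / p.toReal| with hθ
  have hθ0 : 0 ≤ θ := abs_nonneg _
  refine ⟨C * 3 ^ θ, by positivity, fun n hn ε hε0 hε1 => ?_⟩
  have hnr : (2 : ℝ) ≤ n := by exact_mod_cast hn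
  have hlog2 : Real.log 2 ≤ Real.log n := Real.log_le_log (by norm_num) hnr
  have hl2 := Real.log_two_gt_d9
  have hlog : 0 ≤ Real.log n := by linarith
  have hadm : Vale.Agent.P249.Admissible p n (1 + ε)
      ⌊Real.exp (C * (1 + Real.log n) ^ θ / ε)⌋₊ :=
    Vale.Agent.P249.admissible_floor p hp fun Ω _ μ X hX => h n hn ε hε0 hε1 Ω μ X hX.le
  rw [dimU_eq hp]
  have h1 : (Vale.Agent.P249.dimLp p n (1 + ε) : ℝ) ≤
      (⌊Real.exp (C * (1 + Real.log n) ^ θ / ε)⌋₊ : ℝ) := by exact_mod_cast hadm.dimLp_le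
  refine (h1.trans (Nat.floor_le (Real.exp_pos _).le)).trans (Real.exp_le_exp.2 ?_)
  have h2 : (1 + Real.log n) ^ θ ≤ 3 ^ θ * Real.log n ^ θ := by
    rw [← Real.mul_rpow (by norm_num) hlog]
    exact Real.rpow_le_rpow (by linarith) (by linarith) hθ0
  calc C * (1 + Real.log n) ^ θ / ε ≤ C * (3 ^ θ * Real.log n ^ θ) / ε := by gcongr
    _ = C * 3 ^ θ * Real.log n ^ θ / ε := by ring

/-- the upper bound for a fixed distortion and every exponent `γ ≥ |1 - 2 / p|` -/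
theorem dimU_le_exp' (hp1 : 1 < p) (hp : p ≠ ∞) (hp2 : p ≠ 2) {D : ℝ} (hD : 1 < D) {γ : ℝ}
    (hγ : |1 - 2 / p.toReal| ≤ γ) :
    ∃ C : ℝ, 0 < C ∧ ∀ n : ℕ, 2 ≤ n →
      (dimU.{u} p n D : ℝ) ≤ Real.exp (C * Real.log n ^ γ) := by
  obtain ⟨C, hC, h⟩ := dimU_le_exp.{u} hp1 hp hp2
  set θ : ℝ := |1 - 2 / p.toReal| with hθ
  set ε : ℝ := min 1 (D - 1) with hε
  have hε0 : 0 < ε := lt_min one_pos (by linarith)
  have hε1 : ε ≤ 1 := min_le_left _ _
  have hεD : 1 + ε ≤ D := by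
    have := min_le_right 1 (D - 1)
    linarith
  refine ⟨C * 2 ^ (γ - θ) / ε, by positivity, fun n hn => ?_⟩
  have hnr : (2 : ℝ) ≤ n := by exact_mod_cast hn
  have hlog2 : Real.log 2 ≤ Real.log n := Real.log_le_log (by norm_num) hnr
  have hl2 := Real.log_two_gt_d9
  have hlog : 0 < Real.log n := by linarith
  have h1 : (dimU.{u} p n D : ℝ) ≤ dimU.{u} p n (1 + ε) := by
    exact_mod_cast dimU_anti.{u} hp n (by linarith) hεD
  refine (h1.trans (h n hn ε hε0 hε1)).trans (Real.exp_le_exp.2 ?_)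
  have h2 : 1 ≤ 2 ^ (γ - θ) * Real.log n ^ (γ - θ) := by
    rw [← Real.mul_rpow (by norm_num) hlog.le]
    exact Real.one_le_rpow (by linarith) (by linarith)
  have h3 : Real.log n ^ θ ≤ 2 ^ (γ - θ) * Real.log n ^ γ := by
    have e : Real.log n ^ γ = Real.log n ^ (γ - θ) * Real.log n ^ θ := by
      rw [← Real.rpow_add hlog]
      congr 1
      ring
    rw [e, ← mul_assoc]
    exact le_mul_of_one_le_left (Real.rpow_nonneg hlog.le _) h2
  calc C * Real.log n ^ θ / ε ≤ C * (2 ^ (γ - θ) * Real.log n ^ γ) / ε := by gcongr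
    _ = C * 2 ^ (γ - θ) / ε * Real.log n ^ γ := by ring

theorem le_dimU_super (hp1 : 1 < p) (hp : p ≠ ∞) (hp2 : p ≠ 2) {D : ℝ} (hD : 1 < D) :
    ∃ n₀ : ℕ, ∀ n : ℕ, n₀ ≤ n →
      Real.exp (Real.exp ((Real.log (Real.log n)) ^ (1 / 20 : ℝ))) ≤ (dimU.{u} p n D : ℝ) := by
  simp only [dimU_eq hp]
  exact Vale.Agent.P249.TP3.dimLp_of_final3 Vale.Agent.P249.TP3.specFinal3 hp1 hp hp2 hD

omit [Fact (1 ≤ p)] in
theorem expo_lt (hp1 : 1 < p) (hp : p ≠ ∞) :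
    |1 - 2 / p.toReal| < 1 ∧ (p < 2 → |1 - 2 / p.toReal| ≤ 2 - p.toReal) ∧
      (2 < p → |1 - 2 / p.toReal| = 1 - 2 / p.toReal) := by
  have hP1 : 1 < p.toReal := by
    have := (ENNReal.toReal_lt_toReal ENNReal.one_ne_top hp).2 hp1
    simpa using this
  have h0 : 0 < p.toReal := by linarith
  have h1 : 2 / p.toReal < 2 := by rw [div_lt_iff₀ h0]; linarith
  have h2 : 0 < 2 / p.toReal := by positivity
  refine ⟨by rw [abs_lt]; constructor <;> linarith, fun h => ?_, fun h => ?_⟩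
  · have h3 : p.toReal < 2 := by
      have := (ENNReal.toReal_lt_toReal hp (by norm_num : (2 : ℝ≥0∞) ≠ ∞)).2 h
      simpa using this
    have h4 : 1 ≤ 2 / p.toReal := by rw [le_div_iff₀ h0]; linarith
    rw [abs_of_nonpos (by linarith)]
    have h5 : 2 / p.toReal ≤ 3 - p.toReal := by
      rw [div_le_iff₀ h0]
      nlinarith
    linarith
  · have h3 : 2 < p.toReal := by
      have := (ENNReal.toReal_lt_toReal (by norm_num : (2 : ℝ≥0∞) ≠ ∞) hp).2 h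
      simpa using this
    have h4 : 2 / p.toReal ≤ 1 := by rw [div_le_iff₀ h0]; linarith
    exact abs_of_nonneg (by linarith)

end Vale.Agent.P249Z
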